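import Crest.Agent.X212.Flo2.Plc

/-!
# Row 212, LV-WL (helper9): the splitting at a wall
-/

set_option autoImplicit false
set_option linter.unusedSectionVars false
noncomputable section
open scoped Manifold ContDiff Topology InnerProductSpace
open MeasureTheory Set Function Filter

namespace Crest.Agent.X212.Lwl9
open An Cyf70 Sw Flo2
open Nd18 (Jv)
open M (Mf pm)

variable {κ lam ν : Type} [Fintype κ] [Fintype lam] [Fintype ν] [DecidableEq ν]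

/-! ### three necks -/

section nk
variable {X X₁ X₂ : Mf 4} {nc nc₁ nc₂ : ℕ} {b : Bg X.I X.M κ lam ν nc}
  {b₁ : Bg X₁.I X₁.M κ lam ν nc₁} {b₂ : Bg X₂.I X₂.M κ lam ν nc₂} {e : En3 κ lam ν}

/-- the end `K₁` is the neck `K` with the shift `δ` -/
def NH (K : Nk e b) (K₁ : Nk e b₁) (s : Bool) (φ : OpenPartialHomeomorph X₁.M X.M) (δ : ℝ) : Prop :=
  K₁.Inf s ∧ (if s then K.p = K₁.p.map (· + δ) else K.q = K₁.q.map (· + δ)) ∧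
    φ.source = {x | x ∉ K₁.ψ '' (univ ×ˢ {t ∈ K₁.J | t + δ ∉ K.J})} ∧
    ∀ y t, t ∈ K₁.J → t + δ ∈ K.J → φ (K₁.ψ (y, t)) = K.ψ (y, t + δ)

variable {K : Nk e b} {K₁ : Nk e b₁} {K₂ : Nk e b₂} {s : Bool}
  {φ : OpenPartialHomeomorph X₁.M X.M} {φ' : OpenPartialHomeomorph X₂.M X.M} {δ δ' : ℝ}

theorem NH.pull (h : NH K K₁ s φ δ) (y) {u : ℝ} (hu : u ∈ K.J) :
    u - δ ∈ K₁.J ∧ K₁.ψ (y, u - δ) ∈ φ.source ∧ φ (K₁.ψ (y, u - δ)) = K.ψ (y, u) := by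
  obtain ⟨h1, h2, h3, h4⟩ := h
  have k : u - δ ∈ K₁.J := by
    cases s
    · refine ⟨by simp [show K₁.p = none from h1], fun a ha => ?_⟩
      linarith [hu.2 _ (h2 ▸ Option.mem_map.2 ⟨a, ha, rfl⟩ : a + δ ∈ K.q)]
    · refine ⟨fun a ha => ?_, by simp [show K₁.q = none from h1]⟩
      linarith [hu.1 _ (h2 ▸ Option.mem_map.2 ⟨a, ha, rfl⟩ : a + δ ∈ K.p)]
  refine ⟨k, h3 ▸ fun ⟨x, hx, e⟩ => hx.2.2 ?_, by rw [h4 y _ k (by simpa using hu), sub_add_cancel]⟩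
  rw [K₁.ψ.injOn (K₁.src ▸ ⟨trivial, hx.2.1⟩) (K₁.src ▸ ⟨trivial, k⟩) e]
  simpa using hu

theorem NH.src (h : NH K K₁ s φ δ) (h' : NH K K₂ (!s) φ' δ') {ρ : ℝ}
    (hρ : ρ + (|K₂.p.getD 0| + |K₂.q.getD 0|) < pm s * (δ' - δ)) {x}
    (hx : x ∉ K₁.ψ '' (univ ×ˢ K₁.far s ρ)) : x ∈ φ.source := by
  obtain ⟨h1, h2, h3, -⟩ := h
  obtain ⟨-, h4, -⟩ := h'
  refine h3 ▸ fun ⟨z, hz, e⟩ => hx ⟨z, ⟨trivial, hz.2.1,
    (not_le.1 fun k => hz.2.2 ?_ : ρ < pm s * z.2)⟩, e⟩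
  have := abs_nonneg (K₂.p.getD 0)
  have := abs_nonneg (K₂.q.getD 0)
  cases s
  · simp only [pm, Bool.false_eq_true, if_false, Bool.not_false, if_true] at *
    refine ⟨fun a ha => ?_, fun a ha => ?_⟩
    · obtain ⟨a, k1, rfl⟩ := Option.mem_map.1 (h4 ▸ ha)
      rw [Option.mem_def.1 k1, Option.getD_some] at hρ
      linarith [le_abs_self a]
    · obtain ⟨a, k1, rfl⟩ := Option.mem_map.1 (h2 ▸ ha)
      linarith [hz.2.1.2 a k1]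
  · simp only [pm, Bool.false_eq_true, if_false, Bool.not_true, if_true] at *
    refine ⟨fun a ha => ?_, fun a ha => ?_⟩
    · obtain ⟨a, k1, rfl⟩ := Option.mem_map.1 (h2 ▸ ha)
      linarith [hz.2.1.1 a k1]
    · obtain ⟨a, k1, rfl⟩ := Option.mem_map.1 (h4 ▸ ha)
      rw [Option.mem_def.1 k1, Option.getD_some] at hρ
      linarith [neg_abs_le a]

theorem NH.fo (h : NH K K₁ s φ δ) (h' : NH K K₂ (!s) φ' δ')
    (cap : φ.target ∩ φ'.target = K.ψ.target) {ρ R : ℝ}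
    (hρ : ρ + (|K₂.p.getD 0| + |K₂.q.getD 0|) < pm s * (δ' - δ)) (hR : ρ + R < pm s * (δ' - δ))
    {f₁ : X₁.M → F2 κ} {f₂ : X₂.M → F2 κ} (h0 : ∀ x ∈ K₂.ψ '' (univ ×ˢ K₂.far (!s) R), f₂ x = 0)
    {x} (hx : x ∉ K₁.ψ '' (univ ×ˢ K₁.far s ρ)) : (psh φ f₁ + psh φ' f₂) (φ x) = f₁ x := by
  have m := h.src h' hρ hx
  have : psh φ' f₂ (φ x) = 0 := by
    refine indicator_apply_eq_zero.2 fun k => ?_
    have k' : φ x ∈ K.ψ.target := cap ▸ ⟨φ.map_source m, k⟩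
    obtain ⟨⟨y, u⟩, hz, e⟩ := K.ψ.image_source_eq_target.ge k'
    rw [K.src] at hz
    obtain ⟨k1, k2, k3⟩ := h.pull y hz.2
    obtain ⟨k4, k5, k6⟩ := h'.pull y hz.2
    rw [comp_apply, ← e, ← k6, φ'.left_inv k5]
    refine h0 _ ⟨_, ⟨trivial, k4, ?_⟩, rfl⟩
    have : pm s * (u - δ) ≤ ρ := not_lt.1 fun k7 =>
      hx ⟨(y, u - δ), ⟨trivial, k1, k7⟩, φ.injOn k2 m (k3.trans e)⟩
    cases s <;> simp [pm] at * <;> linarith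
  rw [Pi.add_apply, this, add_zero, psh, indicator_of_mem (φ.map_source m), comp_apply, φ.left_inv m]

variable {A B C : Ty κ lam ν}

theorem nh_rt (h : A = B) (e : B = C) (e' : A = C) (K : Nk A.en b) (K₁ : Nk B.en b₁)
    (k : K₁.Inf s ∧ (if s then K.p = K₁.p.map (· + δ) else K.q = K₁.q.map (· + δ)) ∧
      φ.source = {x | x ∉ K₁.ψ '' (univ ×ˢ {t ∈ K₁.J | t + δ ∉ K.J})} ∧
      ∀ y t, t ∈ K₁.J → t + δ ∈ K.J → φ (K₁.ψ (y, t)) = (rt h K).ψ (y, t + δ)) :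
    NH (rt e' K) (rt e K₁) s φ δ := by
  subst h e
  exact k

theorem cor_rt (h : A = B) (e : B = C) (e' : A = C) (K : Nk A.en b) (K₁ : Nk B.en b₁)
    (k : K₁.Cor (rt h K) φ 0) : (rt e' K).p = (rt e K₁).p ∧ (rt e' K).q = (rt e K₁).q ∧
      (rt e K₁).ψ.target ⊆ φ.source ∧ ∀ x ∈ (rt e K₁).ψ.source, (rt e' K).ψ x = φ ((rt e K₁).ψ x) := by
  subst h e
  obtain ⟨k1, k2, k3⟩ := k
  simp only [add_zero, Option.map_id'] at k1 k2 k3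
  refine ⟨k1, k2, fun z hz => ?_, fun x hx => (k3 x hx).2⟩
  obtain ⟨x, hx, rfl⟩ := K₁.ψ.image_source_eq_target.ge hz
  exact (k3 x hx).1

theorem rt_tgt (e : A = C) (K : Nk A.en b) : (rt e K).ψ.target = K.ψ.target := by
  subst e
  rfl

end nk

/-! ### one side in slots -/

variable {𝓔 : Type} [Fintype 𝓔] {ty : 𝓔 → Ty κ lam ν} {Sl : Type} [Fintype Sl]

section one
variable {g : Gc κ lam ν} (p : Plc ty Sl g) (l : Lv 𝓔) {nc : ℕ} {P : Pz g.X nc fun i => (g.ty i).en}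

theorem lev_mem {i ε a} (h : p.ι i = (ε, a)) (e : g.ty i = ty ε) {K} (hK : K ∈ P.nk i) :
    (rt e K).re _ _ _ _ ∈ (p.lev l P).nk (ε, a) := by
  obtain ⟨rfl, rfl⟩ : ε = (p.ι i).1 ∧ a = (p.ι i).2 := by simp [h]
  exact (p.lev_nk P l i).trans (by rw [Option.mem_def.1 hK]; rfl)

theorem lev_off {k} : (p.lev l P).Off k ↔ ∀ i, p.ι i = k → P.Off i := by
  refine ⟨fun h i e K hK => ?_, fun h K hK => ?_⟩
  · subst e
    obtain ⟨a, k1, k2⟩ := h _ (lev_mem p l rfl (p.ty i).symm hK)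
    exact ⟨a, (rt_p _ K).symm.trans k1, (rt_q _ K).symm.trans k2⟩
  · by_cases k : ∃ i, p.ι i = k
    · obtain ⟨i, rfl⟩ := k
      obtain ⟨K, k1, rfl⟩ := Option.mem_map.1 (p.lev_nk P l i ▸ hK)
      obtain ⟨a, k2, k3⟩ := h i rfl K k1
      exact ⟨a, (rt_p _ K).trans k2, (rt_q _ K).trans k3⟩
    · rw [p.lev_none P l fun i e => k ⟨i, e⟩] at hK
      cases hK

variable {g₁ : Gc κ lam ν} (p₁ : Plc ty Sl g₁) {nc₁ : ℕ} {P₁ : Pz g₁.X nc₁ fun i => (g₁.ty i).en}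
  {i : g.N} {j : g₁.N} {s : Bool} {φ : OpenPartialHomeomorph g₁.X.M g.X.M} {δ : ℝ}
  {r : g₁.N → g.N → Prop} {c : Fin nc₁ → Fin nc}
  (h : Hlf (en := Ty.en) (ty := g.ty) (ty₁ := g₁.ty) P i P₁ j s φ δ r c)

/-- the slots are matched by `σ` -/
def Mch (i : g.N) (j : g₁.N) (r : g₁.N → g.N → Prop) (σ : 𝓔 → Equiv.Perm Sl) : Prop :=
  ∀ j' i', r j' i' ∨ (j' = j ∧ i' = i) → p₁.ι j' = ((p.ι i').1, σ (p.ι i').1 (p.ι i').2)

include h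

theorem exists_mch (hty : Injective ty) (hr : ∀ j i', r j i' → g₁.ty j = g.ty i') :
    ∃ σ, Mch p p₁ i j r σ := by
  have k1 : ∀ j' i', r j' i' ∨ (j' = j ∧ i' = i) → (p₁.ι j').1 = (p.ι i').1 := fun j' i' k => by
    refine hty ((p₁.ty _).trans (Eq.trans ?_ (p.ty _).symm))
    rcases k with k | ⟨rfl, rfl⟩
    exacts [hr _ _ k, h.nk.1.symm]
  have k2 : ∀ j' i' j'' i'', r j' i' ∨ (j' = j ∧ i' = i) → r j'' i'' ∨ (j'' = j ∧ i'' = i) →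
      (j' = j'' ↔ i' = i'') := by
    rintro j' i' j'' i'' (k | ⟨rfl, rfl⟩) (k' | ⟨rfl, rfl⟩)
    · exact h.inj _ _ _ _ k k'
    · simp [(h.nc _ _ k).1, (h.nc _ _ k).2.1]
    · simp [(h.nc _ _ k').1.symm, (h.nc _ _ k').2.1.symm]
    · simp
  have : ∀ ε, ∃ σ : Equiv.Perm Sl, ∀ x : {x : g₁.N × g.N //
      (r x.1 x.2 ∨ (x.1 = j ∧ x.2 = i)) ∧ (p.ι x.2).1 = ε}, σ (p.ι x.1.2).2 = (p₁.ι x.1.1).2 := fun ε => by
    refine Equiv.Perm.exists_extending_pair _ _ (fun x y e => ?_) fun x y e => ?_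
    · have := p.inj (Prod.ext (x.2.2.trans y.2.2.symm) e)
      exact Subtype.ext (Prod.ext ((k2 _ _ _ _ x.2.1 y.2.1).2 this) this)
    · have := p₁.inj (Prod.ext ((k1 _ _ x.2.1).trans (x.2.2.trans
        ((k1 _ _ y.2.1).trans y.2.2).symm)) e)
      exact Subtype.ext (Prod.ext this ((k2 _ _ _ _ x.2.1 y.2.1).1 this))
  choose σ hσ using this
  exact ⟨σ, fun j' i' k => Prod.ext (k1 _ _ k) (hσ _ ⟨(j', i'), k, rfl⟩).symm⟩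

theorem nh {ε a a'} (e : p.ι i = (ε, a)) (e₁ : p₁.ι j = (ε, a')) :
    ∃ K ∈ (p.lev l P).nk (ε, a), ∃ K₁ ∈ (p₁.lev l P₁).nk (ε, a'), NH K K₁ s φ δ := by
  obtain ⟨k, K, hK, K₁, hK₁, k'⟩ := h.nk
  have k1 : g₁.ty j = ty ε := (p₁.ty j).symm.trans (by rw [e₁])
  exact ⟨_, lev_mem p l e (k.trans k1) hK, _, lev_mem p₁ l e₁ k1 hK₁, nh_rt k k1 (k.trans k1) K K₁ k'⟩

theorem half {σ} (hσ : Mch p p₁ i j r σ) {W : Type} (yt : l.YT ty W) {O : 𝓔 × Sl → Prop} {π}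
    (hπ : ∀ k, O k → π k = σ k.1 k.2)
    (h1 : ∀ k, O k → k ≠ p.ι i ∧ ∀ i', p.ι i' = k → P.Off i' ∨ ∃ j', r j' i')
    (h2 : ∀ j' i', r j' i' → O (p.ι i')) {a'} (e₁ : p₁.ι j = ((p.ι i).1, a')) {fo η fo₁ η₁}
    {J : Finset W} {ρ : ℝ} (hη : ∀ k, ∀ w ∈ J, η w (c k) = η₁ w k)
    (hfo : ∀ K ∈ (p.lev l P).nk (p.ι i), ∀ K₁ ∈ (p₁.lev l P₁).nk ((p.ι i).1, a'), NH K K₁ s φ δ →
      ∀ w ∈ J, ∀ x ∉ K₁.ψ '' (univ ×ˢ K₁.far s ρ), fo w (φ x) = fo₁ w x) :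
    Half (d := l.dt ty yt) ⟨p.lev l P, fo, η⟩ ⟨p₁.lev l P₁, fo₁, η₁⟩ (p.ι i).1 (p.ι i).2 a' s φ δ ρ
      O π c J := by
  have e₂ := e₁.symm.trans (hσ j i (.inr ⟨rfl, rfl⟩))
  have inj : ∀ k k' : 𝓔 × Sl, (k.1, σ k.1 k.2) = (k'.1, σ k'.1 k'.2) → k = k' := by
    rintro ⟨x, y⟩ ⟨x', y'⟩ e
    obtain ⟨rfl, e⟩ := Prod.ext_iff.1 e
    exact Prod.ext rfl ((σ _).injective e)
  obtain ⟨K, hK, K₁, hK₁, k⟩ := nh p l p₁ h rfl e₁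
  refine ⟨⟨h.lit.iso, h.lit.P, h.lit.o, h.lit.J, rfl, h.lit.p, h.lit.ρ, h.lit.A, h.lit.ms, h.lit.om⟩,
    ⟨K, hK, K₁, hK₁, k.1, k.2.1, k.2.2.1, k.2.2.2, hfo K hK K₁ hK₁ k⟩, fun k hk => ?_,
    fun k k' hk hk' e => inj _ _ (by rwa [hπ k hk, hπ k' hk'] at e), fun k hk => ?_,
    fun k => ⟨(h.ct k).1, (h.ct k).2.1, (h.ct k).2.2.1, (h.ct k).2.2.2, hη k⟩⟩
  · have ne : (k.1, π k) ≠ ((p.ι i).1, a') := by
      rw [hπ k hk, e₂]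
      exact fun e => (h1 k hk).1 (inj _ _ e)
    refine ⟨(h1 k hk).1, ne, ?_⟩
    by_cases k1 : ∃ j' i', r j' i' ∧ p.ι i' = k
    · obtain ⟨j', i', k1, rfl⟩ := k1
      have k2 := (hσ j' i' (.inl k1)).trans (congrArg _ (hπ _ hk).symm)
      rcases (h.nc _ _ k1).2.2 with k3 | ⟨k3, K₁, hK₁, K, hK, k4⟩
      · exact .inl ⟨(lev_off p l).2 fun _ e => p.inj e ▸ k3.2,
          (lev_off p₁ l).2 fun _ e => p₁.inj (e.trans k2.symm) ▸ k3.1⟩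
      · have k5 : g₁.ty j' = ty (p.ι i').1 := k3.symm.trans (p.ty _).symm
        exact .inr ⟨_, lev_mem p l rfl (k3.trans k5) hK, _, lev_mem p₁ l k2 k5 hK₁,
          cor_rt k3 k5 (k3.trans k5) K K₁ k4⟩
    · refine .inl ⟨(lev_off p l).2 fun i' e => ((h1 k hk).2 i' e).resolve_right
        fun ⟨j', k2⟩ => k1 ⟨j', i', k2, e⟩, (lev_off p₁ l).2 fun j' e => ?_⟩
      rcases h.all j' with rfl | k2 | ⟨i', k2⟩
      · exact (ne (e.symm.trans e₁)).elim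
      · exact k2
      · rw [hσ j' i' (.inl k2), hπ k hk] at e
        exact (k1 ⟨j', i', k2, inj _ _ e⟩).elim
  · by_cases k1 : ∃ j' i', r j' i' ∧ p₁.ι j' = k
    · obtain ⟨j', i', k1, rfl⟩ := k1
      exact .inr ⟨_, h2 _ _ k1, by rw [hπ _ (h2 _ _ k1), hσ j' i' (.inl k1)]⟩
    · refine .inl ((lev_off p₁ l).2 fun j' e => ?_)
      rcases h.all j' with rfl | k2 | ⟨i', k2⟩
      · exact (hk (e.symm.trans e₁)).elim
      · exact k2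
      · exact (k1 ⟨j', i', k2, e⟩).elim

end one

theorem exists_j {k k₁ k₂ : ℕ} {ι₁ : Fin k₁ → Fin k} {ι₂ : Fin k₂ → Fin k} {c : Fin k}
    (h : Bijective (Sum.elim (Sum.elim ι₁ ι₂) fun _ : Unit => c)) (a : ℝ) :
    ∃ j : Tk k₁ × Tk k₂ × ℝ →ᴬ[ℝ] Tk k, (∀ x, j x ∘ ι₁ = x.1 ∧ j x ∘ ι₂ = x.2.1 ∧ j x c = x.2.2 + a) ∧
      ∀ t, j (t ∘ ι₁, t ∘ ι₂, t c - a) = t := by
  let E := Equiv.ofBijective _ h
  let L : (Fin k₁ ⊕ Fin k₂) ⊕ Unit → (Tk k₁ × Tk k₂ × ℝ →L[ℝ] ℝ) := Sum.elim (Sum.elim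
    (fun m => .proj m ∘L .fst ..) fun m => .proj m ∘L .fst .. ∘L .snd ..) fun _ => .snd .. ∘L .snd ..
  let j : Tk k₁ × Tk k₂ × ℝ →ᴬ[ℝ] Tk k := (ContinuousLinearMap.pi fun m => L (E.symm m)).toContinuousAffineMap +
    .const ℝ _ fun m => Sum.elim (fun _ => 0) (fun _ => a) (E.symm m)
  have k : ∀ x m, j x (E m) = L m x + Sum.elim (fun _ => 0) (fun _ => a) m := fun x m => by simp [j]
  refine ⟨j, fun x => ⟨funext fun m => (k x (.inl (.inl m))).trans (add_zero _),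
    funext fun m => (k x (.inl (.inr m))).trans (add_zero _), k x (.inr ())⟩,
    fun t => funext fun m => ?_⟩
  obtain ⟨m, rfl⟩ := E.surjective m
  rw [k]
  rcases m with (m | m) | m
  exacts [add_zero _, add_zero _, sub_add_cancel _ _]

theorem rel_mem {N N' : Type} {r : N → N' → Prop} {o : Option N} {o' : Option N'}
    (h : Option.Rel r o o') {j} (hj : j ∈ o') : ∃ j' ∈ o, r j' j := by
  cases h with
  | some k => exact ⟨_, rfl, by cases hj; exact k⟩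
  | none => cases hj

theorem ng_eq {g : Gc κ lam ν} (h : g.OK) {i K} (hK : K ∈ g.s.nk i) (t) {K'}
    (hK' : K' ∈ (g.P t).nk i) : K'.p = K.p ∧ K'.q = K.q := by
  obtain ⟨K'', k1, k2⟩ := h.fam.en t (h.Q ▸ mem_univ t) i K hK
  obtain rfl := Option.mem_unique k1 hK'
  exact ⟨congrArg (·.1) k2, congrArg (·.2.1) k2⟩

/-- the ends of a family: the constants of `NH.fo` -/
theorem far_fo {d : Dt κ lam ν} {N : Type} [Fintype N] {ty : N → d.𝓔} {X : Mf 4} {nc : ℕ} {T : Type}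
    [NormedAddCommGroup T] [NormedSpace ℝ T] [FiniteDimensional ℝ T]
    {s : Pz X 0 fun i => d.e (ty i)} {𝓕 : Fam s nc T} (h : 𝓕.OK) {i b} (hi : s.Inf i b)
    (J : Finset d.W) : ∃ R, ∀ t ∈ 𝓕.Q, ∀ K ∈ (𝓕.P t).nk i, |K.p.getD 0| + |K.q.getD 0| ≤ R ∧
      ∀ w ∈ J, ∀ x ∈ K.ψ '' (univ ×ˢ K.far b R), (𝓕.P t).fo w x = 0 := by
  obtain ⟨K₀, h0, hi⟩ := hi
  choose r hr using h.cfo
  obtain ⟨R, hR⟩ := (J.finite_toSet.image r).bddAbove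
  refine ⟨max R (|K₀.p.getD 0| + |K₀.q.getD 0|), fun t ht K hK => ?_⟩
  obtain ⟨K', k1, k2⟩ := h.en t ht i K₀ h0
  obtain rfl := Option.mem_unique k1 hK
  have k3 : K'.p = K₀.p := congrArg (·.1) k2
  have k4 : K'.q = K₀.q := congrArg (·.2.1) k2
  have k5 : K'.ψ = K₀.ψ := congrArg (·.2.2.1) k2
  refine ⟨k3 ▸ k4 ▸ le_max_right _ _, fun w hw x ⟨z, hz, e⟩ => hr w t ht x fun k =>
    k i b K₀ h0 hi ⟨z, ⟨trivial, ?_, ((hR ⟨w, hw, rfl⟩).trans (le_max_left _ _)).trans_lt hz.2.2⟩,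
      k5 ▸ e⟩⟩
  exact (k3 ▸ k4 ▸ hz.2.1 : z.2 ∈ Jv K₀.p K₀.q)

/-- **LV-WL** -/
theorem wl : WlStmt κ lam ν := by
  classical
  intro g g₁ g₂ c i cap ι₁ ι₂ lf r W τ τ₁ τ₂ hg hg₁ hg₂ _ _ hc hw 𝓔 _ ty Sl _ p p₁ p₂ l yt hty
  obtain ⟨j₁, hj₁, j₂, hj₂, r₁, r₂, e, -, -, t3, t4, w1, w2, p1, -, -, p2, ⟨δ, hδ⟩, hτ⟩ := hw.spl
  have h3 := hδ (fun _ => 3) le_rfl
  obtain ⟨σ₁, hσ₁⟩ := exists_mch p p₁ h3.l' hty t3
  obtain ⟨σ₂, hσ₂⟩ := exists_mch p p₂ h3.r' hty t4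
  have e₁ := hσ₁ j₁ i (.inr ⟨rfl, rfl⟩)
  have e₂ := hσ₂ j₂ i (.inr ⟨rfl, rfl⟩)
  have o₁ : g₁.pout = some j₁ ∨ g₁.p3 = some j₁ := by cases cap; exacts [.inl hj₁, .inr hj₁]
  have i₁ := (hg₁.out j₁).2 o₁
  have i₂ := (hg₂.inn j₂).2 hj₂
  obtain ⟨h0, -, hlen⟩ := hg.wl c i hc
  obtain ⟨a, ha⟩ : ∃ a, ∀ v, 3 ≤ v → (δ v).2 - (δ v).1 + a = v := by
    obtain ⟨K₁, hK₁, -⟩ := i₁
    obtain ⟨K₂, hK₂, -⟩ := i₂
    obtain ⟨a₁, k1⟩ := Option.ne_none_iff_exists'.1 fun k : K₁.p = none =>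
      o₁.elim (hg₁.cyl _ ((hg₁.inn j₁).1 ⟨K₁, hK₁, k⟩)).1 (hg₁.cyl _ ((hg₁.inn j₁).1 ⟨K₁, hK₁, k⟩)).2
    obtain ⟨a₂, k2⟩ := Option.ne_none_iff_exists'.1 fun k : K₂.q = none =>
      ((hg₂.out j₂).1 ⟨K₂, hK₂, k⟩).elim (hg₂.cyl _ hj₂).1 (hg₂.cyl _ hj₂).2
    refine ⟨a₂ - a₁, fun v hv => ?_⟩
    obtain ⟨-, K, hK, L₁, hL₁, -, k3, -⟩ := (hδ (fun _ => v) hv).l'.nk
    obtain ⟨-, K', hK', L₂, hL₂, -, k4, -⟩ := (hδ (fun _ => v) hv).r'.nk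
    obtain rfl := Option.mem_unique hK hK'
    have := (hlen fun _ => v).2.2 hv
    rw [Pz.len, Option.mem_def.1 hK, Option.elim_some, show K.p = _ from k3, show K.q = _ from k4,
      (ng_eq hg₁ hK₁ _ hL₁).1, (ng_eq hg₂ hK₂ _ hL₂).2, k1, k2] at this
    simp only [Option.map_some, Option.getD_some] at this
    linarith
  obtain ⟨j, hj, hj'⟩ := exists_j hw.bij a
  let D : ℝ → ℝ × ℝ := fun x => if 3 ≤ x + a then δ (x + a) else (0, x)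
  have hD : ∀ x, (D x).2 - (D x).1 = x := fun x => by
    by_cases k : 3 ≤ x + a
    · simp only [D, if_pos k]; linarith [ha _ k]
    · simp [D, k]
  let sd : 𝓔 × Sl → Bool := fun k => decide (∃ j' i', r₂ j' i' ∧ p.ι i' = k)
  let π : 𝓔 × Sl → Sl := fun k => if sd k then σ₂ k.1 k.2 else σ₁ k.1 k.2
  have s1 : ∀ j' i', r₁ j' i' → sd (p.ι i') = false := fun j' i' k =>
    decide_eq_false fun ⟨_, _, k1, k2⟩ => h3.dj _ _ _ k (p.inj k2 ▸ k1)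
  have s2 : ∀ j' i', r₂ j' i' → sd (p.ι i') = true := fun j' i' k => decide_eq_true ⟨j', i', k, rfl⟩
  have m1 : ∀ j' i', r₁ j' i' → p₁.ι j' = ((p.ι i').1, π (p.ι i')) := fun j' i' k => by
    simp only [π, s1 _ _ k, hσ₁ _ _ (.inl k), Bool.false_eq_true, if_false]
  have m2 : ∀ j' i', r₂ j' i' → p₂.ι j' = ((p.ι i').1, π (p.ι i')) := fun j' i' k => by
    simp only [π, s2 _ _ k, hσ₂ _ _ (.inl k), if_true]
  have n0 : (p.site l yt).nk (p.ι i) = none := (p.lev_nk g.s l i).trans (by rw [h0]; rfl)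
  have n1 : ∀ b, ¬(p.site l yt).Inf (p.ι i) b := fun b ⟨K, hK, _⟩ => by rw [n0] at hK; cases hK
  let S : Spl g.X g₁.X g₂.X g.nc g₁.nc g₂.nc (l.dt ty yt) Sl (Tk g.k) (Tk g₁.k) (Tk g₂.k) :=
    ⟨(p.ι i).1, (p.ι i).2, σ₁ (p.ι i).1 (p.ι i).2, σ₂ (p.ι i).1 (p.ι i).2, none, j, range D,
      fun x => lf (x.2 - x.1 + a), fun x => r (x.2 - x.1 + a), sd, π, e⟩
  refine ⟨S, rfl, rfl, ⟨j₁, hj₁, e₁⟩, ⟨j₂, hj₂, e₂⟩, ⟨a, hj⟩,
    fun i' hi => ?_, fun i' hi => ?_, fun c' j' k => ?_, fun c' j' k => ?_,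
    fun β β₁ β₂ ok ok₁ ok₂ mid oth => ⟨ok, ok₁, ok₂, .fin rfl n0 rfl rfl rfl ⟨fun x y k => ?_,
      fun t => ⟨_, hj' t⟩⟩ (fun x => ⟨D x, ⟨⟨x, rfl⟩, hD x⟩, ?_⟩) fun l₀ => ⟨max (l₀ + a) 4,
      fun t _ k => ?_⟩, fun J => ?_, mid, fun k => (n1 _ k).elim, fun k => (n1 _ k).elim,
      fun k => (n1 _ k).elim, fun k => (nomatch k), oth⟩⟩
  · obtain ⟨j', k1, k2⟩ := rel_mem p1 hi
    exact ⟨s1 _ _ k2, j', k1, m1 _ _ k2⟩
  · cases cap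
    · obtain ⟨j', k1, k2⟩ := rel_mem p2.1 hi
      exact ⟨s2 _ _ k2, j', k1, m2 _ _ k2⟩
    · obtain ⟨j', k1, k2⟩ := rel_mem p2.1 hi
      exact ⟨s1 _ _ k2, j', k1, m1 _ _ k2⟩
  · rcases w1 c' with k1 | ⟨_, k1, i', k2, k3⟩
    · rw [k1.1] at k; cases k
    · obtain rfl := Option.mem_unique k k1
      exact ⟨i', k2, s1 _ _ k3, m1 _ _ k3⟩
  · rcases w2 c' with k1 | ⟨_, k1, i', k2, k3⟩
    · rw [k1.1] at k; cases k
    · obtain rfl := Option.mem_unique k k1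
      exact ⟨i', k2, s2 _ _ k3, m2 _ _ k3⟩
  · have k : j x = j y := k
    refine Prod.ext ?_ (Prod.ext ?_ (add_right_cancel (b := a) ?_))
    · rw [← (hj x).1, k, (hj y).1]
    · rw [← (hj x).2.1, k, (hj y).2.1]
    · rw [← (hj x).2.2, k, (hj y).2.2]
  · rintro _ ⟨⟨y, rfl⟩, rfl⟩
    rw [hD]
  · have k : max (l₀ + a) 4 ≤ (g.P t).len i := k.trans_eq (p.lev_len (g.P t) l i)
    have k1 : 3 ≤ t c := (not_le.1 fun k1 => by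
      linarith [(hlen t).2.1 k1, le_of_max_le_right k]).le
    rw [(hlen t).2.2 k1] at k
    refine ⟨t ∘ ι₁, trivial, t ∘ ι₂, trivial, D (t c - a), ⟨_, rfl⟩, ?_, ?_⟩
    · rw [hD]; linarith [le_of_max_le_left k]
    · rw [Spl.par, hD]; exact (hj' t).symm
  · obtain ⟨R₁, hR₁⟩ := far_fo ok₁.toOK (b := true) ((p₁.lev_inf g₁.s l _ _).2 ⟨j₁, e₁, i₁⟩) J
    obtain ⟨R₂, hR₂⟩ := far_fo ok₂.toOK (b := false) ((p₂.lev_inf g₂.s l _ _).2 ⟨j₂, e₂, i₂⟩) J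
    choose T hT using hτ
    obtain ⟨T₀, hT₀⟩ := (J.finite_toSet.image T).bddAbove
    refine ⟨max (max (2 * R₁ + 1) (2 * R₂ + 1)) (max 3 T₀ - a), ?_⟩
    rintro δ' ⟨x, k4⟩ hx t₁ - t₂ -
    generalize ht : S.par t₁ t₂ δ' = t
    obtain ⟨rfl, rfl, k3⟩ : t ∘ ι₁ = t₁ ∧ t ∘ ι₂ = t₂ ∧ t c = δ'.2 - δ'.1 + a := ht ▸ hj _
    simp only [max_le_iff, sub_le_iff_le_add, ← k3] at hx
    dsimp only [S]
    rw [← k3]
    obtain rfl : δ (t c) = δ' := by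
      rw [← k4, hD] at k3
      rw [← k4, k3]
      exact (if_pos (k3 ▸ hx.2.1)).symm
    have H := hδ t hx.2.1
    have hT := fun w (hw : w ∈ J) => hT w t ((hT₀ ⟨w, hw, rfl⟩).trans hx.2.2)
    have cp : ∀ K ∈ (p.lev l (g.P t)).nk (p.ι i),
        (lf (t c)).target ∩ (r (t c)).target = K.ψ.target := fun K hK => by
      obtain ⟨K, k1, rfl⟩ := Option.mem_map.1 (p.lev_nk _ l i ▸ hK)
      exact (H.cap K k1).trans (rt_tgt _ K).symm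
    obtain ⟨K, hK, K₁, hK₁, n₁⟩ := nh p l p₁ H.l' rfl e₁
    obtain ⟨K', hK', K₂, hK₂, n₂⟩ := nh p l p₂ H.r' rfl e₂
    obtain rfl := Option.mem_unique hK hK'
    obtain ⟨b₁, f₁⟩ := hR₁ _ trivial K₁ hK₁
    obtain ⟨b₂, f₂⟩ := hR₂ _ trivial K₂ hK₂
    refine ⟨trivial, H.cov, cp, half p l p₁ H.l' hσ₁ yt (fun k hk => if_neg (by simp [hk.2]))
      (fun k hk => ⟨hk.1, fun i' k1 => ?_⟩) (fun j' i' k => ⟨p.inj.ne (H.l'.nc _ _ k).2.1, s1 _ _ k⟩) e₁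
      (fun k w hw => (hT w hw).2.1 k) fun L hL L₁ hL₁ _ w hw z hz => ?_,
      half p l p₂ H.r' hσ₂ yt (fun k hk => if_pos hk.2) (fun k hk => ⟨hk.1, fun i' k1 => ?_⟩)
      (fun j' i' k => ⟨p.inj.ne (H.r'.nc _ _ k).2.1, s2 _ _ k⟩) e₂ (fun k w hw => (hT w hw).2.2 k)
      fun L hL L₁ hL₁ _ w hw z hz => ?_⟩
    · subst k1
      rcases H.all i' with rfl | k1 | k1 | ⟨j', k1⟩
      exacts [(hk.1 rfl).elim, .inl k1, .inr k1, absurd ((s2 _ _ k1).symm.trans hk.2) (by simp)]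
    · obtain rfl := Option.mem_unique hK₁ hL₁
      rw [(hT w hw).1]
      exact n₁.fo n₂ (cp K hK) (by simp only [pm, if_true]; linarith [hx.1.2])
        (by simp only [pm, if_true]; linarith [hx.1.2]) (f₂ w hw) hz
    · obtain ⟨j', i'', k2, k3⟩ := of_decide_eq_true hk.2
      exact .inr ⟨j', p.inj (k3.trans k1.symm) ▸ k2⟩
    · obtain rfl := Option.mem_unique hK₂ hL₁
      rw [(hT w hw).1, add_comm]
      exact n₂.fo n₁ ((inter_comm _ _).trans (cp K hK))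
        (by simp only [pm, Bool.false_eq_true, if_false]; linarith [hx.1.1])
        (by simp only [pm, Bool.false_eq_true, if_false]; linarith [hx.1.1]) (f₁ w hw) hz

end Crest.Agent.X212.Lwl9
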